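import Vale.Agent.P281.H68.TL.Har2

/-! P281, project T-L, block B6a (helper68): **HarStmt**, the oscillation of the units on the nearby
fibres. -/

open Set Filter Metric MeasureTheory Vale.Agent.P281 Vale.Agent.P281.H713 Vale.Agent.P272.K
open Vale.Agent.P281.MF Vale.Agent.P281.ISO Vale.Agent.P281.H713.TZ
open Vale.Agent.P281.H969.TL

open scoped Topology ContDiff Manifold

noncomputable section

namespace Vale.Agent.P281.H68.TL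

variable {p d : ℕ} {X Y : Type} [TopologicalSpace X] [ChartedSpace (Cm (p + d)) X]
  [IsManifold 𝓘(ℂ, Cm (p + d)) ω X] [TopologicalSpace Y] [ChartedSpace (Cm p) Y]
  [IsManifold 𝓘(ℂ, Cm p) ω Y] {f : X → Y} {𝒟 : Finset (Set X)} {a : Set X → ℤ}

/-- `f` is open where it is submersive -/
theorem nhds_le_map (hf : ContMDiff 𝓘(ℂ, Cm (p + d)) 𝓘(ℂ, Cm p) ω f) {x : X}
    (hs : Function.Surjective (mfderiv 𝓘(ℂ, Cm (p + d)) 𝓘(ℂ, Cm p) f x)) :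
    𝓝 (f x) ≤ map f (𝓝 x) := by
  obtain ⟨c, hxc, hc⟩ := H152.K.exists_prodChart hf (chart_mem_atlas (Cm p) (f x))
    (mem_chart_source (Cm p) (f x)) hs
  set χ := chartAt (Cm p) (f x) with hχ
  have h1 : f =ᶠ[𝓝 x] fun z => χ.symm ((c z).1) := by
    filter_upwards [c.open_source.mem_nhds hxc] with z hz
    rw [(hc.fst z hz).2, χ.left_inv (hc.fst z hz).1]
  have h2 : map (fun z => χ.symm ((c z).1)) (𝓝 x) = map χ.symm (map Prod.fst (map c (𝓝 x))) := by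
    rw [Filter.map_map, Filter.map_map]; rfl
  rw [Filter.map_congr h1, h2, c.map_nhds_eq hxc, map_fst_nhds, (hc.fst x hxc).2]
  have h3 := χ.symm.map_nhds_eq (x := χ (f x)) (by simpa using χ.map_source (hc.fst x hxc).1)
  rw [h3, χ.left_inv (hc.fst x hxc).1]

/-- a prime divisor which does not contain the fibre is nowhere dense in it -/
theorem freq_off (hf : ContMDiff 𝓘(ℂ, Cm (p + d)) 𝓘(ℂ, Cm p) ω f) {y₀ : Y}
    (hs : ∀ x, f x = y₀ → Function.Surjective (mfderiv 𝓘(ℂ, Cm (p + d)) 𝓘(ℂ, Cm p) f x))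
    (hcon : IsConnected (f ⁻¹' {y₀})) {D : Set X} (hP : J.IsPrime (Cm (p + d)) D)
    (hnot : ¬ f ⁻¹' {y₀} ⊆ D) {x : X} (hx : f x = y₀) : ∃ᶠ z in 𝓝 x, f z = y₀ ∧ z ∉ D := by
  intro hcontra
  refine hnot ?_
  set P : X → Prop := fun x => ∀ᶠ z in 𝓝 x, f z = y₀ → z ∈ D with hPdef
  have hPx : P x := by
    filter_upwards [hcontra] with z hz hfz
    by_contra hzD
    exact hz ⟨hfz, hzD⟩
  have key : ∀ x₁ ∈ f ⁻¹' {y₀}, ∀ᶠ x₂ in 𝓝[f ⁻¹' {y₀}] x₁, (P x₁ → P x₂) ∧ (P x₂ → P x₁) := by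
    intro x₁ hx₁
    have hx₁' : f x₁ = y₀ := hx₁
    obtain ⟨e, he⟩ := hP.2.1 x₁
    obtain ⟨c, hxc, hc⟩ := H152.K.exists_prodChart hf (chart_mem_atlas (Cm p) (f x₁))
      (mem_chart_source (Cm p) (f x₁)) (hs x₁ hx₁')
    set χ := chartAt (Cm p) (f x₁) with hχ
    have h2 : ∀ᶠ q in 𝓝 (c x₁), q ∈ c.target ∧ (J.HolAt (Cm (p + d)) e (c.symm q) ∧
        (c.symm q ∈ D ↔ e (c.symm q) = 0)) := by
      have h0 : ∀ᶠ q in 𝓝 (c x₁), q ∈ c.target := c.open_target.mem_nhds (c.map_source hxc)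
      refine h0.and ?_
      have h3 : Tendsto c.symm (𝓝 (c x₁)) (𝓝 x₁) := by
        have := (c.symm.continuousAt (x := c x₁) (by simpa using c.map_source hxc))
        rw [ContinuousAt, c.left_inv hxc] at this
        exact this
      exact h3.eventually ((localEq_nhds he).mono fun z hz => hz.2)
    obtain ⟨ρ, hρ, hball⟩ := Metric.eventually_nhds_iff_ball.1 h2
    have hnb0 : ∀ᶠ z in 𝓝 x₁, z ∈ c.source := c.open_source.mem_nhds hxc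
    have hnb : ∀ᶠ z in 𝓝 x₁, z ∈ c.source ∧ c z ∈ ball (c x₁) ρ :=
      hnb0.and ((c.continuousAt hxc).eventually (ball_mem_nhds _ hρ))
    have ht0 : (c x₁).1 = χ y₀ := by rw [(hc.fst x₁ hxc).2, hx₁']
    have hA : ∀ᶠ x₂ in 𝓝 x₁, P x₁ → P x₂ := by
      by_cases h : P x₁
      · exact h.eventually_nhds.mono fun _ h _ => h
      · exact Eventually.of_forall fun _ hh => absurd hh h
    refine eventually_nhdsWithin_iff.2 ?_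
    filter_upwards [hnb, hA] with x₂ hx₂ hAx hx₂f
    have hx₂f' : f x₂ = y₀ := hx₂f
    refine ⟨hAx, fun h1 => ?_⟩
    -- the identity theorem
    set u : Cm d → ℂ := fun v => e (c.symm (χ y₀, v)) with hu
    have hmem : ∀ v ∈ ball (c x₁).2 ρ, ((χ y₀, v) : Cm p × Cm d) ∈ ball (c x₁) ρ := by
      intro v hv
      show dist _ _ < ρ
      rw [Prod.dist_eq, max_lt_iff]
      refine ⟨?_, hv⟩
      show dist (χ y₀) (c x₁).1 < ρ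
      rw [ht0, dist_self]
      exact hρ
    have hua : AnalyticOnNhd ℂ u (ball (c x₁).2 ρ) := by
      intro v hv
      have k0 := hball _ (hmem v hv)
      have k1 : ContMDiffAt 𝓘(ℂ, Cm p × Cm d) 𝓘(ℂ, Cm (p + d)) ω c.symm (χ y₀, v) :=
        (hc.symm_hol _ k0.1).contMDiffAt (c.open_target.mem_nhds k0.1)
      have k2 : ContDiff ℂ ω (fun v : Cm d => ((χ y₀, v) : Cm p × Cm d)) := by fun_prop
      have k3 : ContMDiffAt 𝓘(ℂ, Cm d) 𝓘(ℂ, Cm (p + d)) ω (fun v => c.symm (χ y₀, v)) v :=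
        ContMDiffAt.comp (g := c.symm) v k1 k2.contMDiff.contMDiffAt
      have k4 : ContMDiffAt 𝓘(ℂ, Cm d) 𝓘(ℂ, ℂ) ω u v := ContMDiffAt.comp (g := e) v k0.2.1 k3
      exact k4.contDiffAt.analyticAt
    have hfst : ∀ z, z ∈ c.source → f z = y₀ → c z = (χ y₀, (c z).2) := by
      intro z hz hfz
      exact Prod.ext (by rw [(hc.fst z hz).2, hfz]) rfl
    set v₂ := (c x₂).2 with hv₂
    have hcx₂ : c x₂ = (χ y₀, v₂) := hfst x₂ hx₂.1 hx₂f'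
    have hv₂m : v₂ ∈ ball (c x₁).2 ρ := by
      have : dist (c x₂) (c x₁) < ρ := hx₂.2
      rw [hcx₂, Prod.dist_eq, max_lt_iff] at this
      exact this.2
    have hy₀χ : y₀ ∈ χ.source := by rw [← hx₁']; exact mem_chart_source _ _
    have hu0 : u =ᶠ[𝓝 v₂] 0 := by
      have k1 : Tendsto (fun v : Cm d => c.symm (χ y₀, v)) (𝓝 v₂) (𝓝 x₂) := by
        have k2 : ContinuousAt c.symm (χ y₀, v₂) :=
          c.symm.continuousAt (by simpa using (hball _ (hmem v₂ hv₂m)).1)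
        have k3 : ContinuousAt (fun v : Cm d => c.symm (χ y₀, v)) v₂ :=
          ContinuousAt.comp (g := c.symm) k2 (by fun_prop)
        rw [ContinuousAt, ← hcx₂, c.left_inv hx₂.1] at k3
        exact k3
      filter_upwards [k1.eventually h1, isOpen_ball.mem_nhds hv₂m] with v hv1 hv2
      have k4 := hball _ (hmem v hv2)
      have k5 := hc.fst _ (c.map_target k4.1)
      rw [c.right_inv k4.1] at k5
      exact k4.2.2.1 (hv1 (χ.injOn k5.1 hy₀χ k5.2.symm))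
    have hu1 := hua.eqOn_zero_of_preconnected_of_eventuallyEq_zero
      (convex_ball _ _).isPreconnected hv₂m hu0
    show ∀ᶠ z in 𝓝 x₁, f z = y₀ → z ∈ D
    filter_upwards [hnb] with z hz hfz
    have k1 := hfst z hz.1 hfz
    have k2 : (c z).2 ∈ ball (c x₁).2 ρ := by
      have : dist (c z) (c x₁) < ρ := hz.2
      rw [k1, Prod.dist_eq, max_lt_iff] at this
      exact this.2
    have k3 : e (c.symm (χ y₀, (c z).2)) = 0 := hu1 k2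
    have k4 := (hball _ (hmem _ k2)).2.2.2 k3
    rw [← k1, c.left_inv hz.1] at k4
    exact k4
  intro z hz
  have hall := hcon.isPreconnected.induction₂' (fun x₁ x₂ => P x₁ → P x₂) key
    (fun _ _ _ _ _ _ h1 h2 h => h2 (h1 h)) (show x ∈ f ⁻¹' {y₀} from hx) hz
  exact (hall hPx).self_of_nhds hz

/-- the same for the finite union -/
theorem freq_offs (hf : ContMDiff 𝓘(ℂ, Cm (p + d)) 𝓘(ℂ, Cm p) ω f) {y₀ : Y}
    (hs : ∀ x, f x = y₀ → Function.Surjective (mfderiv 𝓘(ℂ, Cm (p + d)) 𝓘(ℂ, Cm p) f x))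
    (hcon : IsConnected (f ⁻¹' {y₀})) (hP : ∀ D ∈ 𝒟, J.IsPrime (Cm (p + d)) D)
    (hnot : ∀ D ∈ 𝒟, ¬ f ⁻¹' {y₀} ⊆ D) :
    ∀ x, f x = y₀ → ∃ᶠ z in 𝓝 x, f z = y₀ ∧ ∀ D ∈ 𝒟, z ∉ D := by
  classical
  induction 𝒟 using Finset.induction_on with
  | empty =>
    intro x hx hcontra
    exact hcontra.self_of_nhds ⟨hx, fun D hD => absurd hD (Finset.notMem_empty D)⟩
  | insert D₀ 𝒟 hD₀ ih =>
    intro x hx
    have ih' := ih (fun D hD => hP D (Finset.mem_insert_of_mem hD))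
      (fun D hD => hnot D (Finset.mem_insert_of_mem hD))
    rw [frequently_nhds_iff]
    intro V hxV hV
    obtain ⟨z₁, hz₁V, hz₁, hz₁D⟩ := frequently_nhds_iff.1 (ih' x hx) V hxV hV
    have hopen : IsOpen (V ∩ ⋂ D ∈ 𝒟, Dᶜ) := by
      refine hV.inter (isOpen_biInter_finset fun D hD => ?_)
      exact (hP D (Finset.mem_insert_of_mem hD)).1.isOpen_compl
    have hmem : z₁ ∈ V ∩ ⋂ D ∈ 𝒟, Dᶜ := ⟨hz₁V, mem_iInter₂.2 fun D hD => hz₁D D hD⟩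
    obtain ⟨z₂, hz₂V, hz₂, hz₂D⟩ := frequently_nhds_iff.1
      (freq_off hf hs hcon (hP D₀ (Finset.mem_insert_self _ _)) (hnot D₀ (Finset.mem_insert_self _ _))
        hz₁) _ hmem hopen
    refine ⟨z₂, hz₂V.1, hz₂, fun D hD => ?_⟩
    rcases Finset.mem_insert.1 hD with rfl | hD
    · exact hz₂D
    · exact mem_iInter₂.1 hz₂V.2 D hD

/-- points off `𝒟` on the nearby fibres -/
theorem exists_near (hf : ContMDiff 𝓘(ℂ, Cm (p + d)) 𝓘(ℂ, Cm p) ω f) {y₀ : Y}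
    (hs : ∀ x, f x = y₀ → Function.Surjective (mfderiv 𝓘(ℂ, Cm (p + d)) 𝓘(ℂ, Cm p) f x))
    (hcon : IsConnected (f ⁻¹' {y₀})) (hP : ∀ D ∈ 𝒟, J.IsPrime (Cm (p + d)) D)
    (hnot : ∀ D ∈ 𝒟, ¬ f ⁻¹' {y₀} ⊆ D) {x : X} (hx : f x = y₀) {V : Set X} (hV : V ∈ 𝓝 x) :
    ∀ᶠ y in 𝓝 y₀, ∃ z ∈ V, f z = y ∧ ∀ D ∈ 𝒟, z ∉ D := by
  obtain ⟨z₁, hz₁V, hz₁, hz₁D⟩ := frequently_nhds_iff.1 (freq_offs hf hs hcon hP hnot x hx)
    (interior V) (mem_interior_iff_mem_nhds.2 hV) isOpen_interior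
  have h1 : interior V ∩ (⋂ D ∈ 𝒟, Dᶜ) ∈ 𝓝 z₁ := by
    refine IsOpen.mem_nhds (isOpen_interior.inter (isOpen_biInter_finset fun D hD => ?_))
      ⟨hz₁V, mem_iInter₂.2 fun D hD => hz₁D D hD⟩
    exact (hP D hD).1.isOpen_compl
  have h2 : f '' (interior V ∩ ⋂ D ∈ 𝒟, Dᶜ) ∈ 𝓝 (f z₁) := nhds_le_map hf (hs z₁ hz₁) (image_mem_map h1)
  rw [hz₁] at h2
  filter_upwards [h2] with y hy
  obtain ⟨z, hz, rfl⟩ := hy
  exact ⟨z, interior_subset hz.1, rfl, fun D hD => mem_iInter₂.1 hz.2 D hD⟩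

variable {w : Chart (p + d) X → Cm (p + d) → Matrix (Fin (p + d)) (Fin (p + d)) ℂ}
    {C : Set X → ℝ} {N : Set X → X → ℝ}

omit [IsManifold 𝓘(ℂ, Cm (p + d)) ω X] [ChartedSpace (Cm p) Y] [IsManifold 𝓘(ℂ, Cm p) ω Y] in
/-- `log (|U|² ∏ N_D^(-a D))` is bounded above on the fibre -/
theorem bdd_lg [CompactSpace X] [T2Space Y] (hfc : Continuous f)
    (hP : ∀ D ∈ 𝒟, J.IsPrime (Cm (p + d)) D) (hN : ∀ D ∈ 𝒟, IsNrm w D (C D) (N D))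
    {y : Y} {U : X → ℂ} (hU : IsUnitAt (Cm (p + d)) f 𝒟 a y U) :
    ∃ M : ℝ, ∀ z, f z = y → (∀ D ∈ 𝒟, z ∉ D) → Lg 𝒟 a N U z ≤ M := by
  have hcpt : IsCompact (f ⁻¹' {y}) := (isClosed_singleton.preimage hfc).isCompact
  have key := hcpt.induction_on
    (p := fun s => ∃ M : ℝ, ∀ z ∈ s, f z = y → (∀ D ∈ 𝒟, z ∉ D) → Lg 𝒟 a N U z ≤ M)
    ⟨0, fun z hz => absurd hz (notMem_empty z)⟩
    (fun s t hst ⟨M, hM⟩ => ⟨M, fun z hz => hM z (hst hz)⟩)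
    (fun s t ⟨M, hM⟩ ⟨M', hM'⟩ => ⟨max M M', fun z hz h1 h2 => by
      rcases hz with hz | hz
      · exact (hM z hz h1 h2).trans (le_max_left _ _)
      · exact (hM' z hz h1 h2).trans (le_max_right _ _)⟩) ?_
  · obtain ⟨M, hM⟩ := key
    exact ⟨M, fun z hz => hM z hz hz⟩
  intro x hx
  obtain ⟨e, he⟩ := exists_localEqs hP x
  obtain ⟨β, hβ, hev⟩ := lg_loc (a := a) hN he
  obtain ⟨h, h1, h2, h3⟩ := unit_ext hU hx he
  have h4 : ContinuousAt (fun z => Real.log ‖h z‖) x :=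
    (ContMDiffAt.continuousAt h1).norm.log (norm_ne_zero_iff.2 h2)
  have h5 : ∀ᶠ z in 𝓝 x, Real.log ‖h z‖ < Real.log ‖h x‖ + 1 :=
    h4.eventually (gt_mem_nhds (lt_add_one _))
  have h6 : ∀ᶠ z in 𝓝 x, f z = y → (∀ D ∈ 𝒟, z ∉ D) →
      Lg 𝒟 a N U z ≤ 2 * (Real.log ‖h x‖ + 1) + β := by
    filter_upwards [hev, h3, h5] with z hz1 hz2 hz3 hfz hzD
    have k1 := hz1 U (unit_ne hU hP hfz hzD) hzD
    rw [hz2 hfz hzD] at k1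
    have := (abs_le.1 k1).2
    linarith
  exact ⟨_, mem_nhdsWithin_of_mem_nhds h6, 2 * (Real.log ‖h x‖ + 1) + β, fun z hz => hz⟩

/-- the relation: comparison of the deficits at the points near `x`, `x'` -/
def HR (f : X → Y) (𝒟 : Finset (Set X)) (a : Set X → ℤ) (N : Set X → X → ℝ) (x x' : X) : Prop :=
  ∃ K : ℝ, 0 ≤ K ∧ ∃ V ∈ 𝓝 x, ∃ V' ∈ 𝓝 x', ∀ (y : Y) (U : X → ℂ) (M : ℝ),
    IsUnitAt (Cm (p + d)) f 𝒟 a y U →
    (∀ z, f z = y → (∀ D ∈ 𝒟, z ∉ D) → Lg 𝒟 a N U z ≤ M) → ∀ z ∈ V, ∀ z' ∈ V', f z = y →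
    f z' = y → (∀ D ∈ 𝒟, z ∉ D) → (∀ D ∈ 𝒟, z' ∉ D) →
    M - Lg 𝒟 a N U z ≤ K * (M - Lg 𝒟 a N U z' + 1)

theorem hr_all (hf : ContMDiff 𝓘(ℂ, Cm (p + d)) 𝓘(ℂ, Cm p) ω f) {y₀ : Y}
    (hs : ∀ x, f x = y₀ → Function.Surjective (mfderiv 𝓘(ℂ, Cm (p + d)) 𝓘(ℂ, Cm p) f x))
    (hcon : IsConnected (f ⁻¹' {y₀})) (hP : ∀ D ∈ 𝒟, J.IsPrime (Cm (p + d)) D)
    (hnot : ∀ D ∈ 𝒟, ¬ f ⁻¹' {y₀} ⊆ D) (hN : ∀ D ∈ 𝒟, IsNrm w D (C D) (N D)) {x x' : X}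
    (hx : f x = y₀) (hx' : f x' = y₀) : HR (p := p) (d := d) f 𝒟 a N x x' := by
  refine hcon.isPreconnected.induction₂' (fun x x' => HR (p := p) (d := d) f 𝒟 a N x x')
    ?_ ?_ (show x ∈ f ⁻¹' {y₀} from hx) (show x' ∈ f ⁻¹' {y₀} from hx')
  · intro x hx
    obtain ⟨K, hK, V, hV, h⟩ := local_har (a := a) hf hP hN (hs x hx)
    refine mem_nhdsWithin_of_mem_nhds ?_
    filter_upwards [eventually_mem_nhds_iff.2 hV] with x' hx'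
    exact ⟨⟨K, hK, V, hV, V, hx', h⟩, ⟨K, hK, V, hx', V, hV, h⟩⟩
  · rintro x x' x'' hx hx' hx'' ⟨K₁, hK₁, V₁, hV₁, V₁', hV₁', h₁⟩ ⟨K₂, hK₂, V₂, hV₂, V₂', hV₂', h₂⟩
    have hn := exists_near hf hs hcon hP hnot hx' (inter_mem hV₁' hV₂)
    have hfx : ContinuousAt f x := hf.continuous.continuousAt
    have hn' : ∀ᶠ z in 𝓝 x, ∃ u ∈ V₁' ∩ V₂, f u = f z ∧ ∀ D ∈ 𝒟, u ∉ D := by
      have hx0 : f x = y₀ := hx
      rw [← hx0] at hn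
      exact hfx.eventually hn
    refine ⟨K₁ * (K₂ + 1), by positivity, _, inter_mem hV₁ hn', V₂', hV₂', ?_⟩
    rintro y U M hU hM z ⟨hz, u, ⟨hu1, hu2⟩, hfu, huD⟩ z'' hz'' hfz hfz'' hzD hzD''
    rw [hfz] at hfu
    have k1 := h₁ y U M hU hM z hz u hu1 hfz hfu hzD huD
    have k2 := h₂ y U M hU hM u hu2 z'' hz'' hfu hfz'' huD hzD''
    have k3 := hM z'' hfz'' hzD''
    calc M - Lg 𝒟 a N U z ≤ K₁ * (M - Lg 𝒟 a N U u + 1) := k1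
      _ ≤ K₁ * (K₂ * (M - Lg 𝒟 a N U z'' + 1) + 1) := by gcongr
      _ ≤ K₁ * (K₂ * (M - Lg 𝒟 a N U z'' + 1) + (M - Lg 𝒟 a N U z'' + 1)) := by
        gcongr; linarith
      _ = K₁ * (K₂ + 1) * (M - Lg 𝒟 a N U z'' + 1) := by ring

/-- the deficit near `x` is bounded -/
theorem deficit [CompactSpace X] [T2Space Y]
    (hf : ContMDiff 𝓘(ℂ, Cm (p + d)) 𝓘(ℂ, Cm p) ω f) {y₀ : Y}
    (hs : ∀ x, f x = y₀ → Function.Surjective (mfderiv 𝓘(ℂ, Cm (p + d)) 𝓘(ℂ, Cm p) f x))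
    (hcon : IsConnected (f ⁻¹' {y₀})) (hP : ∀ D ∈ 𝒟, J.IsPrime (Cm (p + d)) D)
    (hnot : ∀ D ∈ 𝒟, ¬ f ⁻¹' {y₀} ⊆ D) (hN : ∀ D ∈ 𝒟, IsNrm w D (C D) (N D)) {x : X}
    (hx : f x = y₀) : ∃ K : ℝ, ∃ V ∈ 𝓝 x, ∀ (y : Y) (U : X → ℂ) (M : ℝ),
      IsUnitAt (Cm (p + d)) f 𝒟 a y U →
      (∀ z, f z = y → (∀ D ∈ 𝒟, z ∉ D) → Lg 𝒟 a N U z ≤ M) →
      (∃ z, f z = y ∧ (∀ D ∈ 𝒟, z ∉ D) ∧ M - 1 ≤ Lg 𝒟 a N U z) →
      ∀ z ∈ V, f z = y → (∀ D ∈ 𝒟, z ∉ D) → M - Lg 𝒟 a N U z ≤ K := by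
  have h1 : ∀ x' : X, ∃ (K : ℝ) (V V' : Set X), f x' = y₀ → 0 ≤ K ∧ V ∈ 𝓝 x ∧ V' ∈ 𝓝 x' ∧
      ∀ (y : Y) (U : X → ℂ) (M : ℝ), IsUnitAt (Cm (p + d)) f 𝒟 a y U →
      (∀ z, f z = y → (∀ D ∈ 𝒟, z ∉ D) → Lg 𝒟 a N U z ≤ M) → ∀ z ∈ V, ∀ z' ∈ V', f z = y →
      f z' = y → (∀ D ∈ 𝒟, z ∉ D) → (∀ D ∈ 𝒟, z' ∉ D) →
      M - Lg 𝒟 a N U z ≤ K * (M - Lg 𝒟 a N U z' + 1) := by
    intro x'
    by_cases hx' : f x' = y₀
    · obtain ⟨K, hK, V, hV, V', hV', h⟩ :=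
        hr_all (a := a) hf hs hcon hP hnot hN hx hx'
      exact ⟨K, V, V', fun _ => ⟨hK, hV, hV', h⟩⟩
    · exact ⟨0, ∅, ∅, fun h => absurd h hx'⟩
  choose K V V' h using h1
  have hcpt : IsCompact (f ⁻¹' {y₀}) := (isClosed_singleton.preimage hf.continuous).isCompact
  obtain ⟨t, ht, hcov⟩ := hcpt.elim_nhds_subcover (fun x' => interior (V' x'))
    (fun x' hx' => interior_mem_nhds.2 (h x' hx').2.2.1)
  have hcl : IsClosedMap f := hf.continuous.isClosedMap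
  have h2 := hcl.eventually_nhds_fiber (p := fun z => ∃ x' ∈ t, z ∈ V' x') y₀ (by
    intro x₀ hx₀
    obtain ⟨x', hx', hm⟩ := mem_iUnion₂.1 (hcov hx₀)
    filter_upwards [mem_interior_iff_mem_nhds.1 hm] with z hz
    exact ⟨x', hx', hz⟩)
  have h3 : ∀ᶠ z in 𝓝 x, ∀ z₁ ∈ f ⁻¹' {f z}, ∃ x' ∈ t, z₁ ∈ V' x' := by
    rw [← hx] at h2
    exact (hf.continuous.continuousAt (x := x)).eventually h2
  have h4 : (⋂ x' ∈ t, V x') ∈ 𝓝 x :=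
    (Filter.biInter_finset_mem t).2 fun x' hx' => (h x' (ht x' hx')).2.1
  refine ⟨∑ x' ∈ t, 2 * K x', _, inter_mem h4 h3, ?_⟩
  rintro y U M hU hM ⟨z₁, hz₁, hz₁D, hz₁M⟩ z ⟨hz, hz3⟩ hfz hzD
  obtain ⟨x', hx', hzV'⟩ := hz3 z₁ (by rw [hfz]; exact hz₁)
  obtain ⟨hK, -, -, hh⟩ := h x' (ht x' hx')
  have k1 := hh y U M hU hM z (mem_iInter₂.1 hz x' hx') z₁ hzV' hfz hz₁ hzD hz₁D
  have k2 : K x' * (M - Lg 𝒟 a N U z₁ + 1) ≤ K x' * 2 := mul_le_mul_of_nonneg_left (by linarith) hK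
  have k3 : 2 * K x' ≤ ∑ x' ∈ t, 2 * K x' :=
    Finset.single_le_sum (f := fun x' => 2 * K x') (fun i hi => by
      have := (h i (ht i hi)).1; positivity) hx'
  linarith

/-- **B6a** -/
theorem harStmt_of (hB1 : NrmStmt) : HarStmt := by
  intro p d X Y _ _ _ _ _ _ _ _ _ f S w 𝒟 a hd hw hf hS hfib hP hnot y₀ hy₀ x x' hx hx' e e' he he'
  have h1 : ∀ D : Set X, ∃ (C : ℝ) (N : X → ℝ), D ∈ 𝒟 → IsNrm w D C N := by
    intro D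
    by_cases hD : D ∈ 𝒟
    · obtain ⟨C, N, h⟩ := hB1 (p + d) X w D hw (hP D hD)
      exact ⟨C, N, fun _ => h⟩
    · exact ⟨0, 0, fun hh => absurd hh hD⟩
  choose C N hN using h1
  have hs : ∀ x, f x = y₀ → Function.Surjective (mfderiv 𝓘(ℂ, Cm (p + d)) 𝓘(ℂ, Cm p) f x) :=
    fun x hx => hfib.submersive x (by rw [hx]; exact hy₀)
  have hcon := hfib.connected y₀ hy₀
  have hnot' : ∀ D ∈ 𝒟, ¬ f ⁻¹' {y₀} ⊆ D := fun D hD => hnot D hD y₀ hy₀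
  obtain ⟨K, V', hV', hK⟩ := deficit (a := a) hf hs hcon hP hnot' hN hx'
  obtain ⟨β, hβ, hev⟩ := lg_loc (a := a) hN he
  obtain ⟨β', hβ', hev'⟩ := lg_loc (a := a) hN he'
  refine ⟨Real.exp ((K + β + β') / 2), _, hev.and (localEqs_nhds he), _,
    inter_mem hV' (hev'.and (localEqs_nhds he')), ?_⟩
  rintro y U hU z ⟨hz, hze⟩ z' ⟨hzV', hz', hze'⟩ hfz hfz' hzD hzD'
  obtain ⟨M₀, hM₀⟩ := bdd_lg (a := a) hf.continuous hP hN hU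
  set A : Set ℝ := Lg 𝒟 a N U '' {z | f z = y ∧ ∀ D ∈ 𝒟, z ∉ D} with hA
  have hAb : BddAbove A := ⟨M₀, by
    rintro _ ⟨z, ⟨hz1, hz2⟩, rfl⟩
    exact hM₀ z hz1 hz2⟩
  have hAne : A.Nonempty := ⟨_, z, ⟨hfz, hzD⟩, rfl⟩
  have hM : ∀ z, f z = y → (∀ D ∈ 𝒟, z ∉ D) → Lg 𝒟 a N U z ≤ sSup A := fun z h1 h2 =>
    le_csSup hAb ⟨z, ⟨h1, h2⟩, rfl⟩
  have hat : ∃ z, f z = y ∧ (∀ D ∈ 𝒟, z ∉ D) ∧ sSup A - 1 ≤ Lg 𝒟 a N U z := by
    obtain ⟨_, ⟨z, ⟨k1, k2⟩, rfl⟩, k3⟩ := exists_lt_of_lt_csSup hAne (sub_one_lt (sSup A))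
    exact ⟨z, k1, k2, k3.le⟩
  have k1 := hK y U (sSup A) hU hM hat z' hzV' hfz' hzD'
  have k2 := hM z hfz hzD
  have hU0 := unit_ne hU hP hfz hzD
  have hU0' := unit_ne hU hP hfz' hzD'
  have k3 := abs_le.1 (hz U hU0 hzD)
  have k4 := abs_le.1 (hz' U hU0' hzD')
  have hn1 : 0 < ‖U z * ∏ D ∈ 𝒟, e D z ^ (-a D)‖ := by
    refine norm_pos_iff.2 (mul_ne_zero hU0 (Finset.prod_ne_zero_iff.2 fun D hD => zpow_ne_zero _ ?_))
    exact fun h0 => hzD D hD ((hze D hD).2.2.2 h0)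
  have hn2 : 0 < ‖U z' * ∏ D ∈ 𝒟, e' D z' ^ (-a D)‖ := by
    refine norm_pos_iff.2 (mul_ne_zero hU0' (Finset.prod_ne_zero_iff.2 fun D hD => zpow_ne_zero _ ?_))
    exact fun h0 => hzD' D hD ((hze' D hD).2.2.2 h0)
  rw [← Real.log_le_log_iff hn1 (by positivity), Real.log_mul (Real.exp_ne_zero _) hn2.ne',
    Real.log_exp]
  linarith [k3.1, k4.2]

end Vale.Agent.P281.H68.TL
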