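import Mathlib.Analysis.Complex.BorelCaratheodory
import Mathlib.Analysis.Complex.HasPrimitives
import Mathlib.Tactic

/-! P281, project T-L, block B6a (helper68), part 1: Harnack's inequality on a disc. -/

open Set Filter Metric
open scoped Topology

namespace Vale.Agent.P281.H68.TL

/-- holomorphic logarithm on a disc -/
theorem exists_log {G : ℂ → ℂ} {R : ℝ} (hR : 0 < R) (hG : DifferentiableOn ℂ G (ball 0 R))
    (h0 : ∀ z ∈ ball (0 : ℂ) R, G z ≠ 0) :
    ∃ g : ℂ → ℂ, DifferentiableOn ℂ g (ball 0 R) ∧ ∀ z ∈ ball (0 : ℂ) R, Complex.exp (g z) = G z := by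
  have hd : DifferentiableOn ℂ (fun z => deriv G z / G z) (ball 0 R) :=
    (hG.deriv isOpen_ball).div hG h0
  have h00 : (0 : ℂ) ∈ ball (0 : ℂ) R := mem_ball_self hR
  obtain ⟨g, hg0, hg⟩ := hd.isExactOn_ball.with_val_at 0 (Complex.log (G 0))
  have hgd : DifferentiableOn ℂ g (ball 0 R) := fun z hz =>
    (hg z hz).differentiableAt.differentiableWithinAt
  refine ⟨g, hgd, ?_⟩
  have hq : ∀ z ∈ ball (0 : ℂ) R, HasDerivAt (fun z => G z * Complex.exp (-g z)) 0 z := by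
    intro z hz
    have h1 : HasDerivAt G (deriv G z) z := (hG.differentiableAt (isOpen_ball.mem_nhds hz)).hasDerivAt
    have h2 : HasDerivAt (fun z => Complex.exp (-g z)) (Complex.exp (-g z) * -(deriv G z / G z)) z :=
      (hg z hz).neg.cexp
    have h3 := h1.mul h2
    have h4 : deriv G z * Complex.exp (-g z) + G z * (Complex.exp (-g z) * -(deriv G z / G z)) = 0 := by
      have := h0 z hz
      field_simp
      ring
    rw [h4] at h3
    exact h3
  have hc : ∀ z ∈ ball (0 : ℂ) R, G z * Complex.exp (-g z) = G 0 * Complex.exp (-g 0) := by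
    intro z hz
    refine (convex_ball (0 : ℂ) R).is_const_of_fderivWithin_eq_zero (𝕜 := ℂ)
      (f := fun z => G z * Complex.exp (-g z)) (fun w hw =>
        (hq w hw).differentiableAt.differentiableWithinAt) ?_ hz h00
    intro w hw
    rw [fderivWithin_of_isOpen isOpen_ball hw, (hq w hw).hasFDerivAt.fderiv]
    ext
    simp
  intro z hz
  have h1 := hc z hz
  have h2 : G 0 * Complex.exp (-g 0) = 1 := by
    rw [hg0, Complex.exp_neg, Complex.exp_log (h0 0 h00)]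
    exact mul_inv_cancel₀ (h0 0 h00)
  rw [h2, Complex.exp_neg] at h1
  have h3 : Complex.exp (g z) ≠ 0 := Complex.exp_ne_zero _
  field_simp at h1
  exact h1.symm

/-- Harnack for `log ‖G‖` on the disc of radius `3 / 2`. -/
theorem harnack {G : ℂ → ℂ} (hG : DifferentiableOn ℂ G (ball 0 (3 / 2)))
    (h0 : ∀ z ∈ ball (0 : ℂ) (3 / 2), G z ≠ 0) {K : ℝ}
    (hK : ∀ z ∈ ball (0 : ℂ) (3 / 2), Real.log ‖G z‖ ≤ K) :
    K - Real.log ‖G 1‖ ≤ 5 * (K - Real.log ‖G 0‖) + 4 := by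
  obtain ⟨g, hg, he⟩ := exists_log (by norm_num) hG h0
  have h1m : (1 : ℂ) ∈ ball (0 : ℂ) (3 / 2) := by
    rw [mem_ball_zero_iff, norm_one]; norm_num
  have h0m : (0 : ℂ) ∈ ball (0 : ℂ) (3 / 2) := mem_ball_self (by norm_num)
  have hre : ∀ z ∈ ball (0 : ℂ) (3 / 2), (g z).re = Real.log ‖G z‖ := by
    intro z hz
    rw [← he z hz, Complex.norm_exp, Real.log_exp]
  -- normalise
  set u : ℂ → ℂ := fun z => g z - (K + (g 0).im * Complex.I) with hu
  have hud : DifferentiableOn ℂ u (ball 0 (3 / 2)) := hg.sub_const _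
  have hure : ∀ z, (u z).re = (g z).re - K := by
    intro z; simp [hu]
  have hmaps : MapsTo u (ball 0 (3 / 2)) {z | z.re ≤ 1} := by
    intro z hz
    show (u z).re ≤ 1
    rw [hure, hre z hz]
    have := hK z hz
    linarith
  have hb := Complex.borelCaratheodory (M := 1) one_pos hud hmaps (by norm_num) h1m
  have hu0 : ‖u 0‖ = K - Real.log ‖G 0‖ := by
    have h1 : u 0 = (((g 0).re - K : ℝ) : ℂ) := by
      apply Complex.ext
      · simp [hu]
      · simp [hu]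
    rw [h1, Complex.norm_real, Real.norm_eq_abs, hre 0 h0m, abs_of_nonpos]
    · ring
    · have := hK 0 h0m
      linarith
  rw [hu0, norm_one] at hb
  have h2 : -(u 1).re ≤ ‖u 1‖ := by
    have := Complex.abs_re_le_norm (u 1)
    exact (neg_le_abs _).trans this
  rw [hure, hre 1 h1m] at h2
  have h3 : (2 * 1 * 1 / (3 / 2 - 1) + (K - Real.log ‖G 0‖) * (3 / 2 + 1) / (3 / 2 - 1) : ℝ) =
      5 * (K - Real.log ‖G 0‖) + 4 := by ring
  rw [h3] at hb
  linarith

/-- gluing of local extensions -/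
theorem exists_glue {A : Set ℂ} (hA : IsOpen A) {G : ℂ → ℂ} {B : Set ℂ}
    (hB : ∀ z ∈ A, ∃ᶠ w in 𝓝 z, w ∉ B)
    (h : ∀ z ∈ A, ∃ g : ℂ → ℂ, AnalyticAt ℂ g z ∧ g z ≠ 0 ∧ ∀ᶠ w in 𝓝 z, w ∉ B → G w = g w) :
    ∃ H : ℂ → ℂ, (∀ z ∈ A, AnalyticAt ℂ H z ∧ H z ≠ 0) ∧ ∀ z ∈ A, z ∉ B → H z = G z := by
  choose! g hg h0 he using h
  refine ⟨fun z => g z z, ?_, ?_⟩
  · intro z hz
    refine ⟨(hg z hz).congr ?_, h0 z hz⟩
    have h1 := (he z hz).eventually_nhds
    have h2 := (hg z hz).eventually_analyticAt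
    filter_upwards [h1, h2, hA.mem_nhds hz] with w hw1 hw2 hwA
    -- both `g z` and `g w` are continuous at `w` and agree off `B`
    have h3 : ∃ᶠ v in 𝓝 w, g z v = g w v := by
      refine ((hB w hwA).and_eventually (hw1.and (he w hwA))).mono ?_
      rintro v ⟨hv, hv1, hv2⟩
      rw [← hv1 hv, ← hv2 hv]
    by_contra hne
    have h4 : ∀ᶠ v in 𝓝 w, g z v - g w v ≠ 0 :=
      ((hw2.continuousAt).sub (hg w hwA).continuousAt).eventually_ne (sub_ne_zero.2 hne)
    obtain ⟨v, hv1, hv2⟩ := (h3.and_eventually h4).exists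
    exact hv2 (sub_eq_zero.2 hv1)
  · intro z hz hzB
    exact ((he z hz).self_of_nhds hzB).symm

/-- Harnack for a function which is holomorphic and invertible off `B` -/
theorem harnack_off {G : ℂ → ℂ} {B : Set ℂ} (hB : ∀ z ∈ ball (0 : ℂ) (3 / 2), ∃ᶠ w in 𝓝 z, w ∉ B)
    (h : ∀ z ∈ ball (0 : ℂ) (3 / 2), ∃ g : ℂ → ℂ, AnalyticAt ℂ g z ∧ g z ≠ 0 ∧
      ∀ᶠ w in 𝓝 z, w ∉ B → G w = g w) {K : ℝ}
    (hK : ∀ z ∈ ball (0 : ℂ) (3 / 2), z ∉ B → Real.log ‖G z‖ ≤ K) (h0 : (0 : ℂ) ∉ B)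
    (h1 : (1 : ℂ) ∉ B) :
    K - Real.log ‖G 1‖ ≤ 5 * (K - Real.log ‖G 0‖) + 4 := by
  obtain ⟨H, hH, hHG⟩ := exists_glue isOpen_ball hB h
  have h1m : (1 : ℂ) ∈ ball (0 : ℂ) (3 / 2) := by
    rw [mem_ball_zero_iff, norm_one]; norm_num
  have h0m : (0 : ℂ) ∈ ball (0 : ℂ) (3 / 2) := mem_ball_self (by norm_num)
  have hk := harnack (G := H) (K := K) (fun z hz => (hH z hz).1.differentiableAt.differentiableWithinAt)
    (fun z hz => (hH z hz).2) ?_
  · rw [hHG 1 h1m h1, hHG 0 h0m h0] at hk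
    exact hk
  · intro z hz
    by_contra hlt
    rw [not_le] at hlt
    have hc : ContinuousAt (fun w => Real.log ‖H w‖) z :=
      ((hH z hz).1.continuousAt.norm).log (norm_ne_zero_iff.2 (hH z hz).2)
    have hev := hc.eventually (lt_mem_nhds hlt)
    obtain ⟨w, hw1, hw2, hw3⟩ := ((hB z hz).and_eventually
      (hev.and (isOpen_ball.mem_nhds hz))).exists
    have := hK w hw3 hw1
    rw [← hHG w hw3 hw1] at this
    exact absurd this (not_le.2 hw2)

end Vale.Agent.P281.H68.TL
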