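import Vale.Agent.P281.H969.TL.Spec
import Vale.Agent.P281.H152.K.Chart
import Vale.Agent.P281.H68.TL.Har1

/-! P281, project T-L, block B6a (helper68), part 2: the local Harnack inequality for units. -/

open Set Filter Metric MeasureTheory Vale.Agent.P281 Vale.Agent.P281.H713 Vale.Agent.P272.K
open Vale.Agent.P281.MF Vale.Agent.P281.ISO Vale.Agent.P281.H713.TZ
open Vale.Agent.P281.H969.TL

open scoped Topology ContDiff Manifold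

noncomputable section

namespace Vale.Agent.P281.H68.TL

section
variable {E : Type} [NormedAddCommGroup E] [NormedSpace ℂ E] {X : Type} [TopologicalSpace X]
  [ChartedSpace E X]

/-- local equations at the nearby points -/
theorem localEq_nhds {D : Set X} {g : X → ℂ} {x : X} (h : J.IsLocalEq E D g x) :
    ∀ᶠ z in 𝓝 x, J.IsLocalEq E D g z ∧ J.HolAt E g z ∧ (z ∈ D ↔ g z = 0) := by
  obtain ⟨V, hV, hx, h1, h2, h3⟩ := h
  filter_upwards [hV.mem_nhds hx] with z hz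
  exact ⟨⟨V, hV, hz, h1, h2, h3⟩, h1 z hz, h2 z hz⟩

theorem localEqs_nhds {𝒟 : Finset (Set X)} {e : Set X → X → ℂ} {x : X}
    (h : ∀ D ∈ 𝒟, J.IsLocalEq E D (e D) x) :
    ∀ᶠ z in 𝓝 x, ∀ D ∈ 𝒟, J.IsLocalEq E D (e D) z ∧ J.HolAt E (e D) z ∧ (z ∈ D ↔ e D z = 0) :=
  (Filter.eventually_all_finset 𝒟).2 fun D hD => localEq_nhds (h D hD)

theorem exists_localEqs {𝒟 : Finset (Set X)} (h : ∀ D ∈ 𝒟, J.IsPrime E D) (x : X) :
    ∃ e : Set X → X → ℂ, ∀ D ∈ 𝒟, J.IsLocalEq E D (e D) x := by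
  have h1 : ∀ D, ∃ g : X → ℂ, D ∈ 𝒟 → J.IsLocalEq E D g x := by
    intro D
    by_cases hD : D ∈ 𝒟
    · obtain ⟨g, hg⟩ := (h D hD).2.1 x
      exact ⟨g, fun _ => hg⟩
    · exact ⟨0, fun hh => absurd hh hD⟩
  choose e he using h1
  exact ⟨e, he⟩

variable {Y : Type} [TopologicalSpace Y] {f : X → Y} {𝒟 : Finset (Set X)} {a : Set X → ℤ}

omit [TopologicalSpace Y] in
/-- the extension of a unit -/
theorem unit_ext {y : Y} {U : X → ℂ} (hU : IsUnitAt E f 𝒟 a y U) {z : X} (hz : f z = y)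
    {e : Set X → X → ℂ} (he : ∀ D ∈ 𝒟, J.IsLocalEq E D (e D) z) :
    ∃ h : X → ℂ, HolV E h z ∧ h z ≠ 0 ∧ ∀ᶠ w in 𝓝 z, f w = y → (∀ D ∈ 𝒟, w ∉ D) →
      U w * ∏ D ∈ 𝒟, e D w ^ (-a D) = h w := by
  obtain ⟨h, h1, h2, h3⟩ := hU z hz e he
  refine ⟨h, h1, h2, ?_⟩
  filter_upwards [h3, localEqs_nhds he] with w hw hw2 hfw hwD
  rw [hw hfw hwD, mul_assoc, ← Finset.prod_mul_distrib]
  have : ∀ D ∈ 𝒟, e D w ^ a D * e D w ^ (-a D) = 1 := by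
    intro D hD
    have h0 : e D w ≠ 0 := fun h0 => hwD D hD ((hw2 D hD).2.2.2 h0)
    rw [← zpow_add₀ h0, add_neg_cancel, zpow_zero]
  rw [Finset.prod_congr rfl this, Finset.prod_const_one, mul_one]

omit [TopologicalSpace Y] in
/-- a unit has no zero off `𝒟` -/
theorem unit_ne {y : Y} {U : X → ℂ} (hU : IsUnitAt E f 𝒟 a y U) (hP : ∀ D ∈ 𝒟, J.IsPrime E D)
    {z : X} (hz : f z = y) (hzD : ∀ D ∈ 𝒟, z ∉ D) : U z ≠ 0 := by
  obtain ⟨e, he⟩ := exists_localEqs hP z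
  obtain ⟨h, -, h2, h3⟩ := unit_ext hU hz he
  have := h3.self_of_nhds hz hzD
  intro h0
  rw [h0, zero_mul] at this
  exact h2 this.symm

end

/-- `log (|U|² ∏ N_D^(-a D))` -/
def Lg {X : Type} (𝒟 : Finset (Set X)) (a : Set X → ℤ) (N : Set X → X → ℝ) (U : X → ℂ) (z : X) : ℝ :=
  2 * Real.log ‖U z‖ - ∑ D ∈ 𝒟, (a D : ℝ) * Real.log (N D z)

section
variable {n : ℕ} {X : Type} [TopologicalSpace X] [ChartedSpace (Cm n) X]

theorem nrm_loc {w : Chart n X → Cm n → Matrix (Fin n) (Fin n) ℂ} {D : Set X} {C : ℝ} {N : X → ℝ}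
    (hN : IsNrm w D C N) {x : X} {g : X → ℂ} (hg : J.IsLocalEq (Cm n) D g x) :
    ∃ β : ℝ, 0 ≤ β ∧ ∀ᶠ z in 𝓝 x, ∃ c : ℝ, |c| ≤ β ∧ N z = ‖g z‖ ^ 2 * Real.exp c := by
  have hat : At (chartAt (Cm n) x) x := ⟨chart_mem_atlas _ _, mem_chart_source _ _⟩
  obtain ⟨φ, h1, h2, -⟩ := hN.loc x g hg _ hat
  set e := chartAt (Cm n) x with he
  have hc : ContinuousAt (fun z => φ (e z)) x :=
    h1.continuousAt.comp (e.continuousAt (mem_chart_source _ x))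
  refine ⟨|φ (e x)| + 1, by positivity, ?_⟩
  have h3 : ∀ᶠ z in 𝓝 x, N (e.symm (e z)) = ‖g (e.symm (e z))‖ ^ 2 * Real.exp (φ (e z)) :=
    (e.continuousAt (mem_chart_source _ x)).eventually h2
  have h4 : ∀ᶠ z in 𝓝 x, |φ (e z)| < |φ (e x)| + 1 :=
    (hc.abs).eventually (gt_mem_nhds (lt_add_one _))
  filter_upwards [h3, h4, e.open_source.mem_nhds (mem_chart_source _ x)] with z hz1 hz2 hz3
  rw [e.left_inv hz3] at hz1
  exact ⟨φ (e z), hz2.le, hz1⟩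

/-- comparison with the local equations -/
theorem lg_loc {w : Chart n X → Cm n → Matrix (Fin n) (Fin n) ℂ} {𝒟 : Finset (Set X)}
    {a : Set X → ℤ} {C : Set X → ℝ} {N : Set X → X → ℝ} (hN : ∀ D ∈ 𝒟, IsNrm w D (C D) (N D))
    {x : X} {e : Set X → X → ℂ} (he : ∀ D ∈ 𝒟, J.IsLocalEq (Cm n) D (e D) x) :
    ∃ β : ℝ, 0 ≤ β ∧ ∀ᶠ z in 𝓝 x, ∀ U : X → ℂ, U z ≠ 0 → (∀ D ∈ 𝒟, z ∉ D) →
      |Lg 𝒟 a N U z - 2 * Real.log ‖U z * ∏ D ∈ 𝒟, e D z ^ (-a D)‖| ≤ β := by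
  have h1 : ∀ D, ∃ β : ℝ, 0 ≤ β ∧ (D ∈ 𝒟 → ∀ᶠ z in 𝓝 x, ∃ c : ℝ, |c| ≤ β ∧
      N D z = ‖e D z‖ ^ 2 * Real.exp c) := by
    intro D
    by_cases hD : D ∈ 𝒟
    · obtain ⟨β, hβ, h⟩ := nrm_loc (hN D hD) (he D hD)
      exact ⟨β, hβ, fun _ => h⟩
    · exact ⟨0, le_rfl, fun hh => absurd hh hD⟩
  choose β hβ hβ' using h1
  refine ⟨∑ D ∈ 𝒟, |(a D : ℝ)| * β D, Finset.sum_nonneg fun D _ => by have := hβ D; positivity, ?_⟩
  filter_upwards [localEqs_nhds he, (Filter.eventually_all_finset 𝒟).2 fun D hD => hβ' D hD]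
    with z hz1 hz2 U hU hzD
  have hne : ∀ D ∈ 𝒟, e D z ≠ 0 := fun D hD h0 => hzD D hD ((hz1 D hD).2.2.2 h0)
  have h2 : Real.log ‖U z * ∏ D ∈ 𝒟, e D z ^ (-a D)‖ =
      Real.log ‖U z‖ - ∑ D ∈ 𝒟, (a D : ℝ) * Real.log ‖e D z‖ := by
    rw [norm_mul, Real.log_mul (norm_ne_zero_iff.2 hU), norm_prod, Real.log_prod, sub_eq_add_neg,
      ← Finset.sum_neg_distrib]
    · congr 1
      refine Finset.sum_congr rfl fun D _ => ?_
      rw [norm_zpow, Real.log_zpow]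
      push_cast
      ring
    · intro D hD
      exact norm_ne_zero_iff.2 (zpow_ne_zero _ (hne D hD))
    · rw [norm_ne_zero_iff]
      exact Finset.prod_ne_zero_iff.2 fun D hD => zpow_ne_zero _ (hne D hD)
  rw [h2, Lg]
  have h3 : ∀ D ∈ 𝒟, ∃ c : ℝ, |c| ≤ β D ∧ Real.log (N D z) = 2 * Real.log ‖e D z‖ + c := by
    intro D hD
    obtain ⟨c, hc1, hc2⟩ := hz2 D hD
    refine ⟨c, hc1, ?_⟩
    have := norm_ne_zero_iff.2 (hne D hD)
    rw [hc2, Real.log_mul (by positivity) (Real.exp_ne_zero _), Real.log_exp, Real.log_pow]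
    push_cast
    ring
  have h4 : 2 * Real.log ‖U z‖ - ∑ D ∈ 𝒟, (a D : ℝ) * Real.log (N D z) -
      2 * (Real.log ‖U z‖ - ∑ D ∈ 𝒟, (a D : ℝ) * Real.log ‖e D z‖) =
      -∑ D ∈ 𝒟, (a D : ℝ) * (Real.log (N D z) - 2 * Real.log ‖e D z‖) := by
    simp only [mul_sub, Finset.sum_sub_distrib, Finset.mul_sum]
    have : ∑ D ∈ 𝒟, (a D : ℝ) * (2 * Real.log ‖e D z‖) = ∑ D ∈ 𝒟, 2 * ((a D : ℝ) * Real.log ‖e D z‖) :=
      Finset.sum_congr rfl fun D _ => by ring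
    rw [this]
    ring
  rw [h4, abs_neg]
  refine (Finset.abs_sum_le_sum_abs _ _).trans (Finset.sum_le_sum fun D hD => ?_)
  obtain ⟨c, hc1, hc2⟩ := h3 D hD
  rw [abs_mul, hc2, add_sub_cancel_left]
  exact mul_le_mul_of_nonneg_left hc1 (abs_nonneg _)

end

section
variable {p d : ℕ} {X Y : Type} [TopologicalSpace X] [ChartedSpace (Cm (p + d)) X]
  [IsManifold 𝓘(ℂ, Cm (p + d)) ω X] [TopologicalSpace Y] [ChartedSpace (Cm p) Y]
  [IsManifold 𝓘(ℂ, Cm p) ω Y] {f : X → Y} {𝒟 : Finset (Set X)} {a : Set X → ℤ}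

/-- **local Harnack** -/
theorem local_har {w : Chart (p + d) X → Cm (p + d) → Matrix (Fin (p + d)) (Fin (p + d)) ℂ}
    {C : Set X → ℝ} {N : Set X → X → ℝ}
    (hf : ContMDiff 𝓘(ℂ, Cm (p + d)) 𝓘(ℂ, Cm p) ω f)
    (hP : ∀ D ∈ 𝒟, J.IsPrime (Cm (p + d)) D) (hN : ∀ D ∈ 𝒟, IsNrm w D (C D) (N D)) {x : X}
    (hs : Function.Surjective (mfderiv 𝓘(ℂ, Cm (p + d)) 𝓘(ℂ, Cm p) f x)) :
    ∃ K : ℝ, 0 ≤ K ∧ ∃ V ∈ 𝓝 x, ∀ (y : Y) (U : X → ℂ) (M : ℝ), IsUnitAt (Cm (p + d)) f 𝒟 a y U →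
      (∀ z, f z = y → (∀ D ∈ 𝒟, z ∉ D) → Lg 𝒟 a N U z ≤ M) → ∀ z ∈ V, ∀ z' ∈ V, f z = y →
      f z' = y → (∀ D ∈ 𝒟, z ∉ D) → (∀ D ∈ 𝒟, z' ∉ D) →
      M - Lg 𝒟 a N U z ≤ K * (M - Lg 𝒟 a N U z' + 1) := by
  obtain ⟨e, he⟩ := exists_localEqs hP x
  obtain ⟨β, hβ, hev⟩ := lg_loc (a := a) hN he
  obtain ⟨c, hxc, hc⟩ := H152.K.exists_prodChart hf (chart_mem_atlas (Cm p) (f x))
    (mem_chart_source (Cm p) (f x)) hs
  set χ := chartAt (Cm p) (f x) with hχ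
  -- a ball in the chart
  have h1 := (localEqs_nhds he).and hev
  have h2 : ∀ᶠ q in 𝓝 (c x), q ∈ c.target ∧
      ((∀ D ∈ 𝒟, J.IsLocalEq (Cm (p + d)) D (e D) (c.symm q) ∧ J.HolAt (Cm (p + d)) (e D) (c.symm q) ∧
        (c.symm q ∈ D ↔ e D (c.symm q) = 0)) ∧ ∀ U : X → ℂ, U (c.symm q) ≠ 0 →
        (∀ D ∈ 𝒟, c.symm q ∉ D) →
        |Lg 𝒟 a N U (c.symm q) - 2 * Real.log ‖U (c.symm q) * ∏ D ∈ 𝒟, e D (c.symm q) ^ (-a D)‖| ≤ β) := by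
    have h0 : ∀ᶠ q in 𝓝 (c x), q ∈ c.target := c.open_target.mem_nhds (c.map_source hxc)
    refine h0.and ?_
    have h3 : Tendsto c.symm (𝓝 (c x)) (𝓝 x) := by
      have := (c.symm.continuousAt (x := c x) (by simpa using c.map_source hxc))
      rw [ContinuousAt, c.left_inv hxc] at this
      exact this
    exact h3.eventually h1
  obtain ⟨ρ, hρ, hball⟩ := Metric.eventually_nhds_iff_ball.1 h2
  refine ⟨8 + 10 * β, by positivity, c.source ∩ c ⁻¹' ball (c x) (ρ / 4), ?_, ?_⟩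
  · exact inter_mem (c.open_source.mem_nhds hxc)
      ((c.continuousAt hxc).preimage_mem_nhds (ball_mem_nhds _ (by positivity)))
  rintro y U M hU hM z ⟨hz, hzb⟩ z' ⟨hz', hzb'⟩ hfz hfz' hzD hzD'
  obtain ⟨hz1, hz2⟩ := hc.fst z hz
  obtain ⟨hz1', hz2'⟩ := hc.fst z' hz'
  set v := (c z).2 with hv
  set v' := (c z').2 with hv'
  set t := χ y with ht
  have hcz : c z = (t, v) := Prod.ext (by rw [hz2, hfz]) rfl
  have hcz' : c z' = (t, v') := Prod.ext (by rw [hz2', hfz']) rfl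
  have hb1 : dist t (c x).1 < ρ / 4 ∧ dist v (c x).2 < ρ / 4 := by
    have : dist (c z) (c x) < ρ / 4 := hzb
    rw [hcz, Prod.dist_eq, max_lt_iff] at this
    exact this
  have hb1' : dist v' (c x).2 < ρ / 4 := by
    have : dist (c z') (c x) < ρ / 4 := hzb'
    rw [hcz', Prod.dist_eq, max_lt_iff] at this
    exact this.2
  -- the disc
  set l : ℂ → Cm p × Cm d := fun s => (t, v' + s • (v - v')) with hl
  have hlb : ∀ s ∈ ball (0 : ℂ) (3 / 2), l s ∈ ball (c x) ρ := by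
    intro s hs
    rw [mem_ball_zero_iff] at hs
    show dist (l s) (c x) < ρ
    rw [Prod.dist_eq, max_lt_iff]
    refine ⟨by have := hb1.1; show dist t (c x).1 < ρ; linarith, ?_⟩
    show dist (v' + s • (v - v')) (c x).2 < ρ
    have k1 : dist (v' + s • (v - v')) (c x).2 ≤ ‖s • (v - v')‖ + dist v' (c x).2 := by
      rw [dist_eq_norm, dist_eq_norm]
      calc ‖v' + s • (v - v') - (c x).2‖ = ‖s • (v - v') + (v' - (c x).2)‖ := by congr 1; abel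
        _ ≤ _ := norm_add_le _ _
    have k2 : ‖v - v'‖ < ρ / 2 := by
      rw [← dist_eq_norm]
      have := dist_triangle_right v v' (c x).2
      linarith [hb1.2]
    have k3 : ‖s • (v - v')‖ ≤ 3 / 2 * (ρ / 2) := by
      rw [norm_smul]
      exact mul_le_mul hs.le k2.le (norm_nonneg _) (by norm_num)
    linarith
  set κ : ℂ → X := fun s => c.symm (l s) with hκ
  have hκt : ∀ s ∈ ball (0 : ℂ) (3 / 2), l s ∈ c.target := fun s hs => (hball _ (hlb s hs)).1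
  have hfκ : ∀ s ∈ ball (0 : ℂ) (3 / 2), f (κ s) = y := by
    intro s hs
    have k1 := hc.fst (κ s) (c.map_target (hκt s hs))
    have k2 : c (κ s) = l s := c.right_inv (hκt s hs)
    rw [k2] at k1
    have k3 : χ y = χ (f (κ s)) := k1.2
    refine (χ.injOn k1.1 ?_ k3.symm)
    rw [← hfz]; exact hz1
  have hκd : ∀ s ∈ ball (0 : ℂ) (3 / 2), ContMDiffAt 𝓘(ℂ, ℂ) 𝓘(ℂ, Cm (p + d)) ω κ s := by
    intro s hs
    have k1 : ContMDiffAt 𝓘(ℂ, Cm p × Cm d) 𝓘(ℂ, Cm (p + d)) ω c.symm (l s) :=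
      (hc.symm_hol (l s) (hκt s hs)).contMDiffAt (c.open_target.mem_nhds (hκt s hs))
    have k2 : ContDiff ℂ ω l := by
      rw [hl]; fun_prop
    exact ContMDiffAt.comp (g := c.symm) s k1 k2.contMDiff.contMDiffAt
  have hκc : ∀ s ∈ ball (0 : ℂ) (3 / 2), ContinuousAt κ s := fun s hs => (hκd s hs).continuousAt
  have hgκ : ∀ s ∈ ball (0 : ℂ) (3 / 2), ∀ g : X → ℂ, J.HolAt (Cm (p + d)) g (κ s) →
      AnalyticAt ℂ (fun s => g (κ s)) s := by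
    intro s hs g hg
    have k1 : ContMDiffAt 𝓘(ℂ, ℂ) 𝓘(ℂ, ℂ) ω (fun s => g (κ s)) s :=
      ContMDiffAt.comp (g := g) s hg (hκd s hs)
    exact k1.contDiffAt.analyticAt
  have hκ0 : κ 0 = z' := by
    show c.symm (t, v' + (0 : ℂ) • (v - v')) = z'
    rw [zero_smul, add_zero, ← hcz', c.left_inv hz']
  have hκ1 : κ 1 = z := by
    show c.symm (t, v' + (1 : ℂ) • (v - v')) = z
    rw [one_smul, add_sub_cancel, ← hcz, c.left_inv hz]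
  have h0m : (0 : ℂ) ∈ ball (0 : ℂ) (3 / 2) := mem_ball_self (by norm_num)
  have h1m : (1 : ℂ) ∈ ball (0 : ℂ) (3 / 2) := by
    rw [mem_ball_zero_iff, norm_one]; norm_num
  set B : Set ℂ := {s | ∃ D ∈ 𝒟, κ s ∈ D} with hB
  set G : ℂ → ℂ := fun s => U (κ s) * ∏ D ∈ 𝒟, e D (κ s) ^ (-a D) with hG
  have hBf : ∀ s ∈ ball (0 : ℂ) (3 / 2), ∃ᶠ s' in 𝓝 s, s' ∉ B := by
    intro s hs hcon
    have k1 : ∀ᶠ s' in 𝓝 s, s' ∈ B := hcon.mono fun s' h => not_not.1 h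
    have k2 : AnalyticOnNhd ℂ (fun s => ∏ D ∈ 𝒟, e D (κ s)) (ball 0 (3 / 2)) := by
      intro s hs
      refine Finset.analyticAt_fun_prod _ fun D hD => hgκ s hs _ ?_
      exact ((hball _ (hlb s hs)).2.1 D hD).2.1
    have k3 : (fun s => ∏ D ∈ 𝒟, e D (κ s)) =ᶠ[𝓝 s] 0 := by
      filter_upwards [k1, isOpen_ball.mem_nhds hs] with s' hs1 hs2
      obtain ⟨D, hD, hsD⟩ := hs1
      exact Finset.prod_eq_zero hD (((hball _ (hlb s' hs2)).2.1 D hD).2.2.1 hsD)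
    have k4 := k2.eqOn_zero_of_preconnected_of_eventuallyEq_zero
      (convex_ball (0 : ℂ) (3 / 2)).isPreconnected hs k3 h0m
    have k5 : ∏ D ∈ 𝒟, e D (κ 0) = 0 := k4
    obtain ⟨D, hD, hD0⟩ := Finset.prod_eq_zero_iff.1 k5
    have k6 := ((hball _ (hlb 0 h0m)).2.1 D hD).2.2.2 hD0
    have k7 : κ 0 ∈ D := k6
    rw [hκ0] at k7
    exact hzD' D hD k7
  have hext : ∀ s ∈ ball (0 : ℂ) (3 / 2), ∃ g : ℂ → ℂ, AnalyticAt ℂ g s ∧ g s ≠ 0 ∧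
      ∀ᶠ s' in 𝓝 s, s' ∉ B → G s' = g s' := by
    intro s hs
    obtain ⟨h, k1, k2, k3⟩ := unit_ext hU (hfκ s hs) (e := e)
      fun D hD => ((hball _ (hlb s hs)).2.1 D hD).1
    refine ⟨fun s => h (κ s), hgκ s hs h k1, k2, ?_⟩
    filter_upwards [(hκc s hs).eventually k3, isOpen_ball.mem_nhds hs] with s' hs1 hs2 hs3
    exact hs1 (hfκ s' hs2) fun D hD hsD => hs3 ⟨D, hD, hsD⟩
  have hcmp : ∀ s ∈ ball (0 : ℂ) (3 / 2), s ∉ B →
      |Lg 𝒟 a N U (κ s) - 2 * Real.log ‖G s‖| ≤ β := by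
    intro s hs hsB
    have k1 : ∀ D ∈ 𝒟, κ s ∉ D := fun D hD h => hsB ⟨D, hD, h⟩
    exact (hball _ (hlb s hs)).2.2 U (unit_ne hU hP (hfκ s hs) k1) k1
  have h0B : (0 : ℂ) ∉ B := by
    rintro ⟨D, hD, h⟩
    rw [hκ0] at h
    exact hzD' D hD h
  have h1B : (1 : ℂ) ∉ B := by
    rintro ⟨D, hD, h⟩
    rw [hκ1] at h
    exact hzD D hD h
  have hk := harnack_off (G := G) (B := B) hBf hext (K := (M + β) / 2) (fun s hs hsB => by
    have k1 := abs_le.1 (hcmp s hs hsB)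
    have k2 := hM (κ s) (hfκ s hs) fun D hD h => hsB ⟨D, hD, h⟩
    linarith [k1.1]) h0B h1B
  have c0 := abs_le.1 (hcmp 0 h0m h0B)
  have c1 := abs_le.1 (hcmp 1 h1m h1B)
  rw [hκ0] at c0
  rw [hκ1] at c1
  have hM' := hM z' hfz' hzD'
  have k5 : M - Lg 𝒟 a N U z ≤ 5 * (M - Lg 𝒟 a N U z') + (8 + 10 * β) := by linarith [c0.1, c0.2, c1.1, c1.2]
  have k6 : 0 ≤ M - Lg 𝒟 a N U z' := by linarith
  nlinarith [mul_nonneg hβ k6]

end

end Vale.Agent.P281.H68.TL
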